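import Vale.Agent.P365.Open.Circ
import Vale.Agent.P365.Flow.Semi
import Vale.Agent.P365.T2.DerivS755

/-!
# P365 T2: the logarithmic integral (LOG) of the centre trick (helper37, note 20341).

For a pole `a + iB`, a nonnegative weight `L ≤ T`, `L ≤ c + LG ζ u` (`u` the circle coordinate,
`LG ζ u = 2 log 2 - 2 log ‖1 + ζ u‖`), and the smooth law `nuS lam l`:
`∫ |t|² L dnuS ≤ C (1 + c) ∫ |t|² dnuS + C (1 + c + T) / (1 + a² + B²)`.
-/

set_option linter.all false

namespace P365T2.H960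

open MeasureTheory Complex Set P365L P365F P365T1 P365T1.Smooth755
open scoped ENNReal Real

/-- circle coordinate of `v` for the pole `a + iB` -/
noncomputable def uc (a B v : ℝ) : ℂ :=
  (((v - a : ℝ) : ℂ) + B * I) / (((v - a : ℝ) : ℂ) - B * I)

/-- logarithmic weight -/
noncomputable def LG (ζ u : ℂ) : ℝ := 2 * Real.log 2 - 2 * Real.log ‖1 + ζ * u‖

/-- `|t|²` -/
noncomputable def t2 (a B v : ℝ) : ℝ := ((v - a) ^ 2 + B ^ 2)⁻¹

theorem t2_nonneg (a B v : ℝ) : 0 ≤ t2 a B v := by unfold t2; positivity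

theorem measurable_t2 (a B : ℝ) : Measurable (t2 a B) := by unfold t2; fun_prop

theorem LG_nonneg {ζ u : ℂ} (hζ : ‖ζ‖ ≤ 1) (hu : ‖u‖ ≤ 1) : 0 ≤ LG ζ u := by
  unfold LG
  have h1 : ‖1 + ζ * u‖ ≤ 2 := by
    refine (norm_add_le _ _).trans ?_
    rw [norm_one, norm_mul]
    nlinarith [norm_nonneg ζ, norm_nonneg u]
  by_cases h0 : ‖1 + ζ * u‖ = 0
  · rw [h0, Real.log_zero]
    have := Real.log_nonneg (by norm_num : (1 : ℝ) ≤ 2)
    linarith
  · have h2 := Real.log_le_log (lt_of_le_of_ne (norm_nonneg _) (Ne.symm h0)) h1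
    linarith

theorem norm_cayley (t : ℝ) : ‖((t : ℂ) + I) / ((t : ℂ) - I)‖ = 1 := by
  rw [← circle_cphi, norm_circleMap_zero]
  simp

theorem lint_nu_LG {ζ : ℂ} (hζ : ‖ζ‖ = 1) :
    ∫⁻ t : ℝ, ENNReal.ofReal (LG ζ (((t : ℂ) + I) / ((t : ℂ) - I))) ∂nu =
      ENNReal.ofReal (2 * Real.log 2) := by
  have hint1 : CircleIntegrable (fun u => Real.log ‖1 - (-ζ) * u‖) 0 1 :=
    MeromorphicOn.circleIntegrable_log_norm fun z _ => by fun_prop
  have i1 := nu_integrable_circle hint1
  have h1 := nu_integral_circle (fun u : ℂ => Real.log ‖1 - (-ζ) * u‖)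
  rw [avg_log_affine one_ne_zero] at h1
  have h2 : Real.log ‖(1 : ℂ)‖ + Real.posLog (‖-ζ‖ / ‖(1 : ℂ)‖) = 0 := by
    simp [hζ, Real.posLog]
  rw [h2] at h1
  have h3 : ∀ t : ℝ, LG ζ (((t : ℂ) + I) / ((t : ℂ) - I)) =
      2 * Real.log 2 - 2 * Real.log ‖1 - (-ζ) * (((t : ℂ) + I) / ((t : ℂ) - I))‖ := by
    intro t
    unfold LG
    rw [neg_mul, sub_neg_eq_add]
  have i2 : Integrable (fun t : ℝ => LG ζ (((t : ℂ) + I) / ((t : ℂ) - I))) nu := by
    simp only [h3]
    exact (integrable_const _).sub (i1.const_mul 2)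
  rw [← ofReal_integral_eq_lintegral_ofReal i2
    (Filter.Eventually.of_forall fun t => LG_nonneg hζ.le (norm_cayley t).le)]
  congr 1
  simp only [h3]
  rw [integral_sub (integrable_const _) (i1.const_mul 2)]
  have h4 : ∫ t : ℝ, Real.log ‖1 - (-ζ) * (((t : ℂ) + I) / ((t : ℂ) - I))‖ ∂nu = 0 := h1
  rw [integral_const_mul (2 : ℝ) fun t : ℝ =>
    Real.log ‖1 - (-ζ) * (((t : ℂ) + I) / ((t : ℂ) - I))‖, h4]
  simp

theorem measurable_LG (ζ : ℂ) : Measurable (LG ζ) := by
  unfold LG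
  exact measurable_const.sub ((Real.measurable_log.comp
    (measurable_norm.comp (measurable_const.add (measurable_const.mul measurable_id)))).const_mul 2)

theorem measurable_uc (a B : ℝ) : Measurable (uc a B) := by
  unfold uc
  fun_prop

/-- the logarithmic weight against the pole -/
theorem lint_LG {a B : ℝ} (hB : 0 < B) {ζ : ℂ} (hζ : ‖ζ‖ = 1) :
    ∫⁻ v : ℝ, ENNReal.ofReal (t2 a B v) * ENNReal.ofReal (LG ζ (uc a B v)) =
      ENNReal.ofReal (π / B * (2 * Real.log 2)) := by
  have h0 : ∀ v : ℝ, ENNReal.ofReal (t2 a B v) * ENNReal.ofReal (LG ζ (uc a B v)) =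
      (fun x : ℝ => ENNReal.ofReal (t2 0 B x) * ENNReal.ofReal (LG ζ (uc 0 B x))) (v - a) := by
    intro v
    simp only [t2, uc, sub_zero]
  simp only [h0]
  rw [lintegral_sub_right_eq_self
    (fun x : ℝ => ENNReal.ofReal (t2 0 B x) * ENNReal.ofReal (LG ζ (uc 0 B x))) a]
  have hm : Measurable fun x : ℝ => ENNReal.ofReal (LG ζ (uc 0 B x)) :=
    ((measurable_LG ζ).comp (measurable_uc 0 B)).ennreal_ofReal
  have h1 := lintegral_scale hB hm
  have h2 : ∀ t : ℝ, uc 0 B (B * t) = ((t : ℂ) + I) / ((t : ℂ) - I) := by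
    intro t
    unfold uc
    have hden : (t : ℂ) - I ≠ 0 := cau_sub_ne (by simp) t
    have hB' : (B : ℂ) ≠ 0 := by exact_mod_cast hB.ne'
    push_cast
    rw [sub_zero, ← mul_add, ← mul_sub, mul_div_mul_left _ _ hB']
  simp only [h2] at h1
  rw [lint_nu_LG hζ] at h1
  have h3 : ∀ x : ℝ, ENNReal.ofReal (π⁻¹ * B * (x ^ 2 + B ^ 2)⁻¹) * ENNReal.ofReal (LG ζ (uc 0 B x)) =
      ENNReal.ofReal (π⁻¹ * B) *
        (ENNReal.ofReal (t2 0 B x) * ENNReal.ofReal (LG ζ (uc 0 B x))) := by
    intro x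
    simp only [t2, sub_zero]
    rw [← mul_assoc (ENNReal.ofReal (π⁻¹ * B)),
      ← ENNReal.ofReal_mul (by positivity : (0 : ℝ) ≤ π⁻¹ * B)]
  simp only [h3] at h1
  rw [lintegral_const_mul' _ _ ENNReal.ofReal_ne_top] at h1
  have h4 : ENNReal.ofReal (π / B) * ENNReal.ofReal (π⁻¹ * B) = 1 := by
    rw [← ENNReal.ofReal_mul (by positivity)]
    have : π / B * (π⁻¹ * B) = 1 := by
      have := Real.pi_pos.ne'
      field_simp
    rw [this, ENNReal.ofReal_one]
  rw [ENNReal.ofReal_mul (by positivity), h1, ← mul_assoc, h4, one_mul]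

theorem lint_t2 {a B : ℝ} (hB : 0 < B) :
    ∫⁻ v : ℝ, ENNReal.ofReal (t2 a B v) = ENNReal.ofReal (π / B) := by
  have h0 : ∀ v : ℝ, ENNReal.ofReal (t2 a B v) =
      (fun x : ℝ => ENNReal.ofReal (t2 0 B x)) (v - a) := by
    intro v
    simp only [t2, sub_zero]
  simp only [h0]
  rw [lintegral_sub_right_eq_self (fun x : ℝ => ENNReal.ofReal (t2 0 B x)) a]
  have h1 := lintegral_scale hB (f := fun _ => 1) measurable_const
  simp only [mul_one, lintegral_one, measure_univ] at h1
  have h3 : ∀ x : ℝ, ENNReal.ofReal (π⁻¹ * B * (x ^ 2 + B ^ 2)⁻¹) =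
      ENNReal.ofReal (π⁻¹ * B) * ENNReal.ofReal (t2 0 B x) := by
    intro x
    rw [← ENNReal.ofReal_mul (by positivity)]
    simp only [t2, sub_zero]
  simp only [h3] at h1
  rw [lintegral_const_mul' _ _ ENNReal.ofReal_ne_top] at h1
  have h4 : ENNReal.ofReal (π / B) * ENNReal.ofReal (π⁻¹ * B) = 1 := by
    rw [← ENNReal.ofReal_mul (by positivity)]
    have : π / B * (π⁻¹ * B) = 1 := by
      have := Real.pi_pos.ne'
      field_simp
    rw [this, ENNReal.ofReal_one]
  calc _ = (ENNReal.ofReal (π / B) * ENNReal.ofReal (π⁻¹ * B)) *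
        ∫⁻ x, ENNReal.ofReal (t2 0 B x) := by rw [h4, one_mul]
    _ = _ := by rw [mul_assoc, ← h1, mul_one]

/-! ### the smooth density near a point -/

theorem rhoS_le_pt {lam l : ℝ} (hl : 0 < l) (h : l < lam) (a v : ℝ) :
    rhoS lam l v ≤ 2 * rhoS lam l a + 2 * K2 lam l * (v - a) ^ 2 := by
  have h1 := (abs_le.1 (rhoS_taylor hl h a (v - a))).2
  have h2 := rhoSd_sq_le hl h a
  have h3 := rhoS_nonneg hl h a
  have hK := K2_pos hl h
  have e : a + (v - a) = v := by ring
  rw [e] at h1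
  have h4 : rhoSd lam l a * (v - a) ≤ rhoS lam l a + K2 lam l * (v - a) ^ 2 := by
    have h5 : (rhoSd lam l a * (v - a)) ^ 2 ≤ (rhoS lam l a + K2 lam l * (v - a) ^ 2) ^ 2 := by
      rw [mul_pow]
      have h6 := mul_le_mul_of_nonneg_right h2 (sq_nonneg (v - a))
      nlinarith [sq_nonneg (rhoS lam l a - K2 lam l * (v - a) ^ 2)]
    exact (abs_le_of_sq_le_sq' h5 (by positivity)).2
  linarith

theorem rhoS_ge_pt {lam l : ℝ} (hl : 0 < l) (h : l < lam) (a v : ℝ) :
    rhoS lam l a / 2 ≤ rhoS lam l v + 3 * K2 lam l * (v - a) ^ 2 := by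
  have h1 := (abs_le.1 (rhoS_taylor hl h a (v - a))).1
  have h2 := rhoSd_sq_le hl h a
  have h3 := rhoS_nonneg hl h a
  have hK := K2_pos hl h
  have e : a + (v - a) = v := by ring
  rw [e] at h1
  have h4 : -(rhoS lam l a / 2 + 2 * K2 lam l * (v - a) ^ 2) ≤ rhoSd lam l a * (v - a) := by
    have h5 : (rhoSd lam l a * (v - a)) ^ 2 ≤ (rhoS lam l a / 2 + 2 * K2 lam l * (v - a) ^ 2) ^ 2 := by
      rw [mul_pow]
      have h6 := mul_le_mul_of_nonneg_right h2 (sq_nonneg (v - a))
      nlinarith [sq_nonneg (rhoS lam l a / 2 - 2 * K2 lam l * (v - a) ^ 2)]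
    exact (abs_le_of_sq_le_sq' h5 (by positivity)).1
  linarith

theorem x2_t2_le (a B v : ℝ) : (v - a) ^ 2 * t2 a B v ≤ 1 := by
  unfold t2
  by_cases h0 : (v - a) ^ 2 + B ^ 2 = 0
  · rw [h0, inv_zero, mul_zero]
    exact zero_le_one
  · have h1 : 0 < (v - a) ^ 2 + B ^ 2 := lt_of_le_of_ne (by positivity) (Ne.symm h0)
    rw [← div_eq_mul_inv, div_le_one h1]
    nlinarith [sq_nonneg B]

/-- the density at the real part of a shallow pole is paid by the law -/
theorem rho_pole {lam l a B : ℝ} (hl : 0 < l) (h : l < lam) (hB : 0 < B) (hB1 : B ≤ 1) :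
    ENNReal.ofReal (rhoS lam l a / (2 * B)) ≤
      (∫⁻ v, ENNReal.ofReal (t2 a B v) ∂(nuS lam l)) + ENNReal.ofReal (6 * K2 lam l) := by
  have hK := K2_pos hl h
  have h3 := rhoS_nonneg hl h a
  -- integral over `[a - B, a + B]`
  have hI : ∀ v ∈ Icc (a - B) (a + B), ENNReal.ofReal (rhoS lam l a / (4 * B ^ 2)) ≤
      ENNReal.ofReal (rhoS lam l v) * ENNReal.ofReal (t2 a B v) + ENNReal.ofReal (3 * K2 lam l) := by
    intro v hv
    rw [← ENNReal.ofReal_mul (rhoS_nonneg hl h v),
      ← ENNReal.ofReal_add (mul_nonneg (rhoS_nonneg hl h v) (t2_nonneg _ _ _)) (by positivity)]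
    refine ENNReal.ofReal_le_ofReal ?_
    have h4 := rhoS_ge_pt hl h a v
    have h5 : (v - a) ^ 2 ≤ B ^ 2 := by
      rw [sq_le_sq, abs_of_pos hB, abs_le]
      constructor <;> linarith [hv.1, hv.2]
    have h6 : (2 * B ^ 2)⁻¹ ≤ t2 a B v := by
      unfold t2
      exact inv_anti₀ (by positivity) (by linarith)
    have h7 := mul_le_mul_of_nonneg_right h4 (t2_nonneg a B v)
    have h8 : rhoS lam l a / (4 * B ^ 2) ≤ rhoS lam l a / 2 * t2 a B v := by
      have h9 := mul_le_mul_of_nonneg_left h6 (by positivity : 0 ≤ rhoS lam l a / 2)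
      refine le_trans (le_of_eq ?_) h9
      field_simp
      ring
    have h10 := x2_t2_le a B v
    have h11 : 3 * K2 lam l * (v - a) ^ 2 * t2 a B v ≤ 3 * K2 lam l := by
      have := mul_le_mul_of_nonneg_left h10 (by positivity : 0 ≤ 3 * K2 lam l)
      linarith
    nlinarith
  have hvol : (volume : Measure ℝ) (Icc (a - B) (a + B)) = ENNReal.ofReal (2 * B) := by
    rw [Real.volume_Icc]
    congr 1
    ring
  have h12 : ∫⁻ v in Icc (a - B) (a + B), ENNReal.ofReal (rhoS lam l a / (4 * B ^ 2)) ≤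
      ∫⁻ v in Icc (a - B) (a + B), (ENNReal.ofReal (rhoS lam l v) * ENNReal.ofReal (t2 a B v) +
        ENNReal.ofReal (3 * K2 lam l)) := setLIntegral_mono' measurableSet_Icc hI
  rw [setLIntegral_const, hvol, ← ENNReal.ofReal_mul (by positivity),
    lintegral_add_right _ measurable_const, setLIntegral_const, hvol,
    ← ENNReal.ofReal_mul (by positivity)] at h12
  have h13 : ∫⁻ v in Icc (a - B) (a + B), ENNReal.ofReal (rhoS lam l v) * ENNReal.ofReal (t2 a B v) ≤
      ∫⁻ v, ENNReal.ofReal (t2 a B v) ∂(nuS lam l) := by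
    rw [P365T2.H722.nuS_eq_withDensity hl h, lintegral_withDensity_eq_lintegral_mul _
      (measurable_rhoS lam l).ennreal_ofReal (measurable_t2 a B).ennreal_ofReal]
    exact setLIntegral_le_lintegral _ _
  have e1 : rhoS lam l a / (4 * B ^ 2) * (2 * B) = rhoS lam l a / (2 * B) := by
    field_simp
    ring
  rw [e1] at h12
  refine h12.trans (add_le_add h13 (ENNReal.ofReal_le_ofReal ?_))
  nlinarith

/-! ### the one bad point -/

theorem norm_uc {a B : ℝ} (hB : 0 < B) (v : ℝ) : ‖uc a B v‖ = 1 := by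
  have h2 : uc a B v = ((((v - a) / B : ℝ) : ℂ) + I) / ((((v - a) / B : ℝ) : ℂ) - I) := by
    unfold uc
    have hB' : (B : ℂ) ≠ 0 := by exact_mod_cast hB.ne'
    have e1 : (((v - a : ℝ) : ℂ) + B * I) = (B : ℂ) * ((((v - a) / B : ℝ) : ℂ) + I) := by
      push_cast
      field_simp
    have e2 : (((v - a : ℝ) : ℂ) - B * I) = (B : ℂ) * ((((v - a) / B : ℝ) : ℂ) - I) := by
      push_cast
      field_simp
    rw [e1, e2, mul_div_mul_left _ _ hB']
  rw [h2]
  exact norm_cayley _

theorem uc_den_ne {a B : ℝ} (hB : 0 < B) (v : ℝ) : (((v - a : ℝ) : ℂ) - B * I) ≠ 0 := by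
  intro h
  have := congrArg Complex.im h
  simp at this
  exact hB.ne' this

theorem bad_null {a B : ℝ} (hB : 0 < B) {ζ : ℂ} (hζ : ‖ζ‖ = 1) :
    ∀ᵐ v : ℝ, 1 + ζ * uc a B v ≠ 0 := by
  have hsub : ({v : ℝ | ¬ (1 + ζ * uc a B v ≠ 0)}).Subsingleton := by
    intro s hs t ht
    simp only [Set.mem_setOf_eq, not_not] at hs ht
    have hz : ζ ≠ 0 := by
      intro h0
      rw [h0, norm_zero] at hζ
      exact zero_ne_one hζ
    have h1 : uc a B s = uc a B t := by
      have : ζ * uc a B s = ζ * uc a B t := by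
        linear_combination hs - ht
      exact mul_left_cancel₀ hz this
    unfold uc at h1
    have hds := uc_den_ne (a := a) hB s
    have hdt := uc_den_ne (a := a) hB t
    rw [div_eq_div_iff hds hdt] at h1
    have h3 : (2 * B * I : ℂ) * ((s : ℂ) - t) = 0 := by
      push_cast at h1
      linear_combination -h1
    have h4 : (s : ℂ) - t = 0 := by
      rcases mul_eq_zero.1 h3 with h | h
      · exfalso
        have hB' : (B : ℂ) ≠ 0 := by exact_mod_cast hB.ne'
        simp [hB'] at h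
      · exact h
    exact_mod_cast sub_eq_zero.1 h4
  exact hsub.measure_zero _

theorem ae_mem_nuS (lam l : ℝ) : ∀ᵐ v ∂(nuS lam l), v ∈ Icc (-lam) lam := by
  have h1 : nuS lam l ≪ muv lam := withDensity_absolutelyContinuous _ _
  have h2 : ∀ᵐ v ∂(muv lam), v ∈ Icc (-lam) lam := ae_restrict_mem measurableSet_Icc
  exact h1.ae_le h2

/-- constant of the logarithmic integral -/
noncomputable def CLog (lam l : ℝ) : ℝ :=
  26 + (156 * K2 lam l + 4 * K2 lam l * lam) * (2 + 4 * lam ^ 2) + (5 + 1 / lam ^ 2 + 2 * lam ^ 2)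

/-- **(LOG)** -/
theorem log_lint {lam l : ℝ} (hl : 0 < l) (h : l < lam) {a B T c : ℝ} (hB : 0 < B) (hT : 0 ≤ T)
    (hc : 0 ≤ c) {ζ : ℂ} (hζ : ‖ζ‖ = 1) {L : ℝ → ℝ} (hLT : ∀ v, L v ≤ T)
    (hL : ∀ v, 1 + ζ * uc a B v ≠ 0 → L v ≤ c + LG ζ (uc a B v)) :
    ∫⁻ v, ENNReal.ofReal (t2 a B v * L v) ∂(nuS lam l) ≤
      ENNReal.ofReal (CLog lam l * (1 + c)) * ∫⁻ v, ENNReal.ofReal (t2 a B v) ∂(nuS lam l) +
        ENNReal.ofReal (CLog lam l * (1 + c + T) / (1 + a ^ 2 + B ^ 2)) := by
  have hlam : 0 < lam := hl.trans h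
  have hK := K2_pos hl h
  have hC1 : 0 ≤ 5 + 1 / lam ^ 2 + 2 * lam ^ 2 := by positivity
  have hC2 : 0 ≤ (156 * K2 lam l + 4 * K2 lam l * lam) * (2 + 4 * lam ^ 2) := by positivity
  have hC : 0 ≤ CLog lam l := by unfold CLog; linarith
  by_cases hcase : 1 ≤ B ∨ 2 * lam ≤ |a|
  · -- far pole
    haveI := isProbabilityMeasure_nuS hl h
    refine le_trans ?_ (le_add_left le_rfl)
    have h1 : ∀ᵐ v ∂(nuS lam l), ENNReal.ofReal (t2 a B v * L v) ≤
        ENNReal.ofReal (CLog lam l * (1 + c + T) / (1 + a ^ 2 + B ^ 2)) := by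
      filter_upwards [ae_mem_nuS lam l] with v hv
      refine ENNReal.ofReal_le_ofReal ?_
      have hv' : v ^ 2 ≤ lam ^ 2 := by
        rw [sq_le_sq, abs_of_pos hlam]
        exact abs_le.2 hv
      have h2 : 1 + a ^ 2 + B ^ 2 ≤
          (5 + 1 / lam ^ 2 + 2 * lam ^ 2) * ((v - a) ^ 2 + B ^ 2) := by
        rcases hcase with hB1 | ha
        · have h3 : 1 ≤ B ^ 2 := by nlinarith
          have h4 : a ^ 2 ≤ 2 * (v - a) ^ 2 + 2 * v ^ 2 := by nlinarith [sq_nonneg (2 * v - a)]
          have h5 : lam ^ 2 ≤ lam ^ 2 * B ^ 2 := le_mul_of_one_le_right (sq_nonneg _) h3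
          have h6 : 0 ≤ 1 / lam ^ 2 * ((v - a) ^ 2 + B ^ 2) := by positivity
          have h7 : 0 ≤ lam ^ 2 * (v - a) ^ 2 := by positivity
          nlinarith [sq_nonneg (v - a)]
        · have h3 : |a| / 2 ≤ |v - a| := by
            have h4 := abs_sub_abs_le_abs_sub a v
            have h5 : |v| ≤ lam := abs_le.2 hv
            rw [abs_sub_comm v a]
            linarith
          have h4 : a ^ 2 ≤ 4 * (v - a) ^ 2 := by
            have h5 : (|a| / 2) ^ 2 ≤ |v - a| ^ 2 := pow_le_pow_left₀ (by positivity) h3 2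
            rw [sq_abs, div_pow, sq_abs] at h5
            linarith
          have h5 : lam ^ 2 ≤ (v - a) ^ 2 := by
            have h6 : lam ≤ |v - a| := by linarith
            have h7 : lam ^ 2 ≤ |v - a| ^ 2 := pow_le_pow_left₀ hlam.le h6 2
            rwa [sq_abs] at h7
          have h6 : 1 ≤ 1 / lam ^ 2 * (v - a) ^ 2 := by
            rw [one_div_mul_eq_div, one_le_div (by positivity)]
            exact h5
          have h7 : 0 ≤ lam ^ 2 * ((v - a) ^ 2 + B ^ 2) := by positivity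
          have h8 : 0 ≤ 1 / lam ^ 2 * B ^ 2 := by positivity
          nlinarith [sq_nonneg (v - a), sq_nonneg B]
      have hpos : 0 < (v - a) ^ 2 + B ^ 2 := by positivity
      have hpos2 : 0 < 1 + a ^ 2 + B ^ 2 := by positivity
      have h9 : t2 a B v ≤ (5 + 1 / lam ^ 2 + 2 * lam ^ 2) / (1 + a ^ 2 + B ^ 2) := by
        unfold t2
        rw [inv_eq_one_div, div_le_div_iff₀ hpos hpos2]
        linarith
      calc t2 a B v * L v ≤ t2 a B v * T := mul_le_mul_of_nonneg_left (hLT v) (t2_nonneg _ _ _)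
        _ ≤ (5 + 1 / lam ^ 2 + 2 * lam ^ 2) / (1 + a ^ 2 + B ^ 2) * T :=
          mul_le_mul_of_nonneg_right h9 hT
        _ = (5 + 1 / lam ^ 2 + 2 * lam ^ 2) * T / (1 + a ^ 2 + B ^ 2) := by ring
        _ ≤ _ := by
          refine div_le_div_of_nonneg_right ?_ hpos2.le
          have h10 : 5 + 1 / lam ^ 2 + 2 * lam ^ 2 ≤ CLog lam l := by unfold CLog; linarith
          exact mul_le_mul h10 (by linarith) hT hC
    calc ∫⁻ v, ENNReal.ofReal (t2 a B v * L v) ∂(nuS lam l)
        ≤ ∫⁻ v, ENNReal.ofReal (CLog lam l * (1 + c + T) / (1 + a ^ 2 + B ^ 2)) ∂(nuS lam l) :=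
          lintegral_mono_ae h1
      _ = _ := by rw [lintegral_const, measure_univ, mul_one]
  · -- shallow pole
    push Not at hcase
    obtain ⟨hB1, ha⟩ := hcase
    have hr := rhoS_nonneg hl h a
    have h1 : ∀ᵐ v : ℝ, ENNReal.ofReal (rhoS lam l v) * ENNReal.ofReal (t2 a B v * L v) ≤
        (ENNReal.ofReal (2 * rhoS lam l a * c) * ENNReal.ofReal (t2 a B v) +
          ENNReal.ofReal (2 * rhoS lam l a) *
            (ENNReal.ofReal (t2 a B v) * ENNReal.ofReal (LG ζ (uc a B v)))) +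
          (Icc (-lam) lam).indicator (fun _ => ENNReal.ofReal (2 * K2 lam l * T)) v := by
      filter_upwards [bad_null (a := a) hB hζ] with v hbad
      have hLG : 0 ≤ LG ζ (uc a B v) := LG_nonneg hζ.le (norm_uc hB v).le
      by_cases hv : v ∈ Icc (-lam) lam
      · rw [indicator_of_mem hv, ← ENNReal.ofReal_mul (rhoS_nonneg hl h v),
          ← ENNReal.ofReal_mul (by positivity), ← ENNReal.ofReal_mul (t2_nonneg _ _ _),
          ← ENNReal.ofReal_mul (by positivity),
          ← ENNReal.ofReal_add (mul_nonneg (by positivity) (t2_nonneg _ _ _))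
            (mul_nonneg (by positivity) (mul_nonneg (t2_nonneg _ _ _) hLG)),
          ← ENNReal.ofReal_add (add_nonneg (mul_nonneg (by positivity) (t2_nonneg _ _ _))
            (mul_nonneg (by positivity) (mul_nonneg (t2_nonneg _ _ _) hLG))) (by positivity)]
        refine ENNReal.ofReal_le_ofReal ?_
        have ht := t2_nonneg a B v
        have h2 := rhoS_le_pt hl h a v
        have h3 := rhoS_nonneg hl h v
        obtain ⟨M, hM⟩ : ∃ M, M = max (L v) 0 := ⟨_, rfl⟩
        have hM0 : 0 ≤ M := hM ▸ le_max_right _ _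
        have hML : L v ≤ M := hM ▸ le_max_left _ _
        have hMT : M ≤ T := hM ▸ max_le (hLT v) hT
        have hMc : M ≤ c + LG ζ (uc a B v) := hM ▸ max_le (hL v hbad) (by linarith)
        have h4 : rhoS lam l v * (t2 a B v * L v) ≤ rhoS lam l v * (t2 a B v * M) :=
          mul_le_mul_of_nonneg_left (mul_le_mul_of_nonneg_left hML ht) h3
        have h5 : rhoS lam l v * (t2 a B v * M) ≤
            (2 * rhoS lam l a + 2 * K2 lam l * (v - a) ^ 2) * (t2 a B v * M) :=
          mul_le_mul_of_nonneg_right h2 (mul_nonneg ht hM0)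
        have h6 : 2 * rhoS lam l a * (t2 a B v * M) ≤
            2 * rhoS lam l a * (t2 a B v * (c + LG ζ (uc a B v))) :=
          mul_le_mul_of_nonneg_left (mul_le_mul_of_nonneg_left hMc ht) (by positivity)
        have h7 : 2 * K2 lam l * (v - a) ^ 2 * (t2 a B v * M) ≤ 2 * K2 lam l * T := by
          have h8 := x2_t2_le a B v
          have h9 : (v - a) ^ 2 * t2 a B v * M ≤ 1 * T :=
            mul_le_mul h8 hMT hM0 zero_le_one
          have h10 := mul_le_mul_of_nonneg_left h9 (by positivity : 0 ≤ 2 * K2 lam l)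
          calc _ = 2 * K2 lam l * ((v - a) ^ 2 * t2 a B v * M) := by ring
            _ ≤ _ := h10
            _ = _ := by ring
        calc _ ≤ _ := h4
          _ ≤ _ := h5
          _ = 2 * rhoS lam l a * (t2 a B v * M) + 2 * K2 lam l * (v - a) ^ 2 * (t2 a B v * M) := by
            ring
          _ ≤ 2 * rhoS lam l a * (t2 a B v * (c + LG ζ (uc a B v))) + 2 * K2 lam l * T :=
            add_le_add h6 h7
          _ = _ := by ring
      · have h2 : rhoS lam l v = 0 := by
          refine P365T2.H722.rhoS_eq_zero hl h ?_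
          by_contra h3
          push Not at h3
          exact hv (abs_le.1 h3.le)
        rw [h2, ENNReal.ofReal_zero, zero_mul]
        exact zero_le
    have hm : Measurable fun v => ENNReal.ofReal (t2 a B v) := (measurable_t2 a B).ennreal_ofReal
    have hm2 : Measurable fun v => ENNReal.ofReal (LG ζ (uc a B v)) :=
      ((measurable_LG ζ).comp (measurable_uc a B)).ennreal_ofReal
    have h2 : ∫⁻ v, ENNReal.ofReal (t2 a B v * L v) ∂(nuS lam l) ≤
        ENNReal.ofReal (2 * rhoS lam l a * c) * ENNReal.ofReal (π / B) +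
          ENNReal.ofReal (2 * rhoS lam l a) * ENNReal.ofReal (π / B * (2 * Real.log 2)) +
          ENNReal.ofReal (2 * K2 lam l * T) * ENNReal.ofReal (2 * lam) := by
      rw [P365T2.H722.nuS_eq_withDensity hl h]
      refine (lintegral_withDensity_le_lintegral_mul _
        (measurable_rhoS lam l).ennreal_ofReal _).trans ?_
      refine (lintegral_mono_ae h1).trans ?_
      rw [lintegral_add_right _ (measurable_const.indicator measurableSet_Icc),
        lintegral_add_left (hm.const_mul _),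
        lintegral_const_mul' _ _ ENNReal.ofReal_ne_top,
        lintegral_const_mul' _ _ ENNReal.ofReal_ne_top, lint_t2 hB, lint_LG hB hζ,
        lintegral_indicator measurableSet_Icc, setLIntegral_const, Real.volume_Icc]
      have e : lam - -lam = 2 * lam := by ring
      rw [e]
    have h3 := rho_pole (a := a) hl h hB hB1.le
    obtain ⟨J, hJ⟩ : ∃ J, J = ∫⁻ v, ENNReal.ofReal (t2 a B v) ∂(nuS lam l) := ⟨_, rfl⟩
    rw [← hJ] at h3 ⊢
    refine h2.trans ?_
    have hlog : Real.log 2 ≤ 1 := by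
      have := Real.log_two_lt_d9
      linarith
    have hlog0 : 0 ≤ Real.log 2 := Real.log_nonneg (by norm_num)
    have hpi : π ≤ 3.15 := Real.pi_lt_d2.le
    have hpi0 := Real.pi_pos
    rw [← ENNReal.ofReal_mul (by positivity), ← ENNReal.ofReal_mul (by positivity),
      ← ENNReal.ofReal_mul (by positivity), ← ENNReal.ofReal_add (by positivity) (by positivity),
      ← ENNReal.ofReal_add (by positivity) (by positivity)]
    have h4 : 2 * rhoS lam l a * c * (π / B) + 2 * rhoS lam l a * (π / B * (2 * Real.log 2)) +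
        2 * K2 lam l * T * (2 * lam) =
        (4 * π * (c + 2 * Real.log 2)) * (rhoS lam l a / (2 * B)) + 4 * K2 lam l * lam * T := by
      field_simp
      ring
    rw [h4, ENNReal.ofReal_add (by positivity) (by positivity), ENNReal.ofReal_mul (by positivity)]
    have h5 : ENNReal.ofReal (4 * π * (c + 2 * Real.log 2)) ≤ ENNReal.ofReal (26 * (1 + c)) := by
      refine ENNReal.ofReal_le_ofReal ?_
      nlinarith [mul_nonneg hpi0.le hc, mul_nonneg hpi0.le hlog0]
    calc ENNReal.ofReal (4 * π * (c + 2 * Real.log 2)) * ENNReal.ofReal (rhoS lam l a / (2 * B)) +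
          ENNReal.ofReal (4 * K2 lam l * lam * T)
        ≤ ENNReal.ofReal (26 * (1 + c)) * (J + ENNReal.ofReal (6 * K2 lam l)) +
          ENNReal.ofReal (4 * K2 lam l * lam * T) := by gcongr
      _ = ENNReal.ofReal (26 * (1 + c)) * J + (ENNReal.ofReal (26 * (1 + c) * (6 * K2 lam l)) +
          ENNReal.ofReal (4 * K2 lam l * lam * T)) := by
        rw [mul_add, ENNReal.ofReal_mul (by positivity : 0 ≤ 26 * (1 + c)), add_assoc]
      _ ≤ _ := by
        refine add_le_add ?_ ?_
        · gcongr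
          unfold CLog
          linarith
        · rw [← ENNReal.ofReal_add (by positivity) (by positivity)]
          refine ENNReal.ofReal_le_ofReal ?_
          have hpos2 : 0 < 1 + a ^ 2 + B ^ 2 := by positivity
          rw [le_div_iff₀ hpos2]
          have h6 : a ^ 2 ≤ 4 * lam ^ 2 := by
            have h7 : |a| ^ 2 ≤ (2 * lam) ^ 2 := pow_le_pow_left₀ (abs_nonneg a) ha.le 2
            rw [sq_abs] at h7
            linarith
          have h7 : B ^ 2 ≤ 1 := by nlinarith
          have h8 : 1 + a ^ 2 + B ^ 2 ≤ 2 + 4 * lam ^ 2 := by linarith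
          have h9 : 26 * (1 + c) * (6 * K2 lam l) + 4 * K2 lam l * lam * T ≤
              (156 * K2 lam l + 4 * K2 lam l * lam) * (1 + c + T) := by
            nlinarith [mul_nonneg hK.le hT, mul_nonneg (mul_nonneg hK.le hlam.le) hc,
              mul_nonneg hK.le hlam.le]
          calc (26 * (1 + c) * (6 * K2 lam l) + 4 * K2 lam l * lam * T) * (1 + a ^ 2 + B ^ 2)
              ≤ ((156 * K2 lam l + 4 * K2 lam l * lam) * (1 + c + T)) * (2 + 4 * lam ^ 2) :=
                mul_le_mul h9 h8 hpos2.le (by positivity)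
            _ = ((156 * K2 lam l + 4 * K2 lam l * lam) * (2 + 4 * lam ^ 2)) * (1 + c + T) := by ring
            _ ≤ _ := by
              refine mul_le_mul_of_nonneg_right ?_ (by linarith)
              unfold CLog
              linarith

end P365T2.H960
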