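import Vale.Agent.P365.T2.C0844
import Vale.Agent.P365.T2.H960.Log

/-!
# P365 T2: law part of the centre trick (helper37, note 20341, (3)).

`Wv W z v` is `W` with the real potential of `z` replaced by `v`; `pz = sg_z + i e_z` is the pole,
`Im pz = Sf`.  For weights `f`:
`∑_b f_b T_xb(v) - ∑_b f_b T0_xb = Re (al · u(v))` (`circ`),
`∫ 2 e_z m_z(v) (N(v) - N0) dnuS(v) = e_z Re (al β)` (`law_id`), `‖β‖ ≤ CS Sf / (1 + ‖pz‖²)`
(`norm_bet`).
-/

set_option linter.all false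

namespace P365T2.H960

open MeasureTheory Complex Set Finset P365L P365F P365O P365T1 P365T1.Smooth755 P365T2.H844
open scoped ENNReal Real ComplexConjugate

variable {ι : Type*} [Fintype ι] [DecidableEq ι]

/-- the configuration with potential `v` at `z` -/
noncomputable def Wv (W : ι → ℂ) (z : ι) (v : ℝ) : ι → ℂ :=
  Function.update W z ((v : ℂ) + ((W z).im : ℂ) * I)

/-- the pole `sg_z + i e_z` -/
noncomputable def pz (A : Matrix ι ι ℝ) (W : ι → ℂ) (z : ι) : ℂ :=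
  sg A W z - ((W z).im : ℂ) * I

/-- slope of `T_xb` in the circle coordinate of `G_zz` -/
noncomputable def alT (A : Matrix ι ι ℝ) (W : ι → ℂ) (z x b : ι) : ℂ :=
  (((-(W x).im) * (-(W b).im) : ℝ) : ℂ) *
    (2 * (conj (Gc A W z x b) * (gw A W z x * gw A W z b * (-I * (qz A W z : ℂ)))))

/-- `β = 2 Sf ∫ (v - pz)⁻² dnuS` -/
noncomputable def bet (lam l : ℝ) (A : Matrix ι ι ℝ) (W : ι → ℂ) (z : ι) : ℂ :=
  2 * (Sf A W z : ℂ) * ∫ v, 1 / ((v : ℂ) - pz A W z) ^ 2 ∂(nuS lam l)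

variable {A : Matrix ι ι ℝ} {W : ι → ℂ}

theorem Wv_im (z : ι) (v : ℝ) (x : ι) : (Wv W z v x).im = (W x).im := by
  unfold Wv
  by_cases hx : x = z
  · subst hx
    rw [Function.update_self]
    simp
  · rw [Function.update_of_ne hx]

theorem Wv_neg (hW : ∀ x, (W x).im < 0) (z : ι) (v : ℝ) (x : ι) : (Wv W z v x).im < 0 := by
  rw [Wv_im]
  exact hW x

theorem vim (hW : ∀ x, (W x).im < 0) (z : ι) (v : ℝ) :
    ((v : ℂ) + ((W z).im : ℂ) * I).im < 0 := by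
  simpa using hW z

theorem Sf_Wv (hA : A.IsSymm) (hW : ∀ x, (W x).im < 0) (z : ι) (v : ℝ) :
    Sf A (Wv W z v) z = Sf A W z := by
  unfold Sf
  refine Finset.sum_congr rfl fun a _ => ?_
  rw [Wv_im]
  unfold Wv
  rw [gw_upd hA hW (vim hW z v)]

theorem qz_Wv (hA : A.IsSymm) (hW : ∀ x, (W x).im < 0) (z : ι) (v : ℝ) :
    qz A (Wv W z v) z = qz A W z := by
  unfold qz
  rw [Sf_Wv hA hW]

theorem gw_Wv (hA : A.IsSymm) (hW : ∀ x, (W x).im < 0) (z : ι) (v : ℝ) (a : ι) :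
    gw A (Wv W z v) z a = gw A W z a := gw_upd hA hW (vim hW z v) a

theorem Gi_Wv (hA : A.IsSymm) (hW : ∀ x, (W x).im < 0) (z : ι) (v : ℝ) (a b : ι) :
    Gi A (Wv W z v) z a b = Gi A W z a b := Gi_upd hA hW (vim hW z v) a b

theorem Gc_Wv (hA : A.IsSymm) (hW : ∀ x, (W x).im < 0) (z : ι) (v : ℝ) (a b : ι) :
    Gc A (Wv W z v) z a b = Gc A W z a b := by
  unfold Gc
  rw [Gi_Wv hA hW, gw_Wv hA hW, gw_Wv hA hW, qz_Wv hA hW]

theorem Tc_Wv (hA : A.IsSymm) (hW : ∀ x, (W x).im < 0) (z : ι) (v : ℝ) (a b : ι) :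
    Tc A (Wv W z v) z a b = Tc A W z a b := by
  unfold Tc
  rw [Gc_Wv hA hW, gw_Wv hA hW, gw_Wv hA hW, qz_Wv hA hW, Wv_im, Wv_im]

theorem alT_Wv (hA : A.IsSymm) (hW : ∀ x, (W x).im < 0) (z : ι) (v : ℝ) (a b : ι) :
    alT A (Wv W z v) z a b = alT A W z a b := by
  unfold alT
  rw [Gc_Wv hA hW, gw_Wv hA hW, gw_Wv hA hW, qz_Wv hA hW, Wv_im, Wv_im]

theorem sg_Wv (hA : A.IsSymm) (hW : ∀ x, (W x).im < 0) (z : ι) (v : ℝ) :
    sg A (Wv W z v) z = sg A W z := sg_upd hA hW (vim hW z v)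

theorem pz_Wv (hA : A.IsSymm) (hW : ∀ x, (W x).im < 0) (z : ι) (v : ℝ) :
    pz A (Wv W z v) z = pz A W z := by
  unfold pz
  rw [sg_Wv hA hW, Wv_im]

theorem pz_im (hA : A.IsSymm) (hW : ∀ x, (W x).im < 0) (z : ι) :
    (pz A W z).im = Sf A W z := by
  unfold pz
  rw [Complex.sub_im, sg_im hA hW]
  simp

theorem pz_eq (hA : A.IsSymm) (hW : ∀ x, (W x).im < 0) (z : ι) :
    pz A W z = ((pz A W z).re : ℂ) + (Sf A W z : ℂ) * I := by
  rw [← pz_im hA hW]
  exact (Complex.re_add_im _).symm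

theorem Gr_Wv (hA : A.IsSymm) (hW : ∀ x, (W x).im < 0) (z : ι) (v : ℝ) :
    Gr A (Wv W z v) z z = ((v : ℂ) - pz A W z)⁻¹ := by
  have h := Gr_zz_upd hA hW (vim hW z v) (z := z)
  unfold Wv
  rw [h]
  congr 1
  unfold pz
  ring

theorem sub_pz (hA : A.IsSymm) (hW : ∀ x, (W x).im < 0) (z : ι) (v : ℝ) :
    (v : ℂ) - pz A W z = ((v - (pz A W z).re : ℝ) : ℂ) - (Sf A W z : ℂ) * I := by
  conv_lhs => rw [pz_eq hA hW z]
  push_cast
  ring

/-- `G_zz = i q (1 - u)` -/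
theorem Gr_circ (hA : A.IsSymm) (hW : ∀ x, (W x).im < 0) (z : ι) (v : ℝ) :
    Gr A (Wv W z v) z z = (qz A W z : ℂ) * I +
      (-I * (qz A W z : ℂ)) * uc (pz A W z).re (Sf A W z) v := by
  have hS := Sf_pos hA hW z
  have hS' : (Sf A W z : ℂ) ≠ 0 := by exact_mod_cast hS.ne'
  rw [Gr_Wv hA hW, sub_pz hA hW]
  have hd := uc_den_ne (a := (pz A W z).re) hS v
  unfold uc qz
  push_cast at hd ⊢
  field_simp
  ring_nf
  rw [Complex.I_sq]
  ring

theorem normsq_Gr (hA : A.IsSymm) (hW : ∀ x, (W x).im < 0) (z : ι) (v : ℝ) :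
    ‖Gr A (Wv W z v) z z‖ ^ 2 = t2 (pz A W z).re (Sf A W z) v := by
  rw [Gr_Wv hA hW, sub_pz hA hW, norm_inv, inv_pow, ← Complex.normSq_eq_norm_sq,
    Complex.normSq_apply]
  unfold t2
  congr 1
  simp
  ring

theorem mm_Wv (hA : A.IsSymm) (hW : ∀ x, (W x).im < 0) (z : ι) (v : ℝ) :
    mm A (Wv W z v) z = Sf A W z * t2 (pz A W z).re (Sf A W z) v := by
  rw [mm_eq_Sf hA (Wv_neg hW z v), Sf_Wv hA hW, normsq_Gr hA hW]

theorem circ_alg (g c u : ℂ) (q : ℝ) (hu : ‖u‖ = 1) :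
    ‖g + c * ((q : ℂ) * I + (-I * (q : ℂ)) * u)‖ ^ 2 -
      (‖g + c * ((q : ℂ) * I)‖ ^ 2 + ‖c‖ ^ 2 * q ^ 2) =
    (2 * (conj (g + c * ((q : ℂ) * I)) * (c * (-I * (q : ℂ)))) * u).re := by
  have h1 : ‖u‖ ^ 2 = 1 := by rw [hu]; norm_num
  rw [← Complex.normSq_eq_norm_sq, Complex.normSq_apply] at h1
  rw [← Complex.normSq_eq_norm_sq, ← Complex.normSq_eq_norm_sq, ← Complex.normSq_eq_norm_sq,
    Complex.normSq_apply, Complex.normSq_apply, Complex.normSq_apply]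
  simp only [map_add, map_mul, Complex.conj_ofReal, Complex.conj_I, Complex.add_re,
    Complex.add_im, Complex.mul_re, Complex.mul_im, Complex.ofReal_re, Complex.ofReal_im,
    Complex.I_re, Complex.I_im, Complex.conj_re, Complex.conj_im, Complex.neg_re,
    Complex.neg_im, Complex.re_ofNat, Complex.im_ofNat]
  linear_combination (q ^ 2 * (c.re * c.re + c.im * c.im)) * h1

/-- **circle form of the entries** -/
theorem TT_circ (hA : A.IsSymm) (hW : ∀ x, (W x).im < 0) (z : ι) (v : ℝ) (x b : ι) :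
    TT A (Wv W z v) x b - Tc A W z x b =
      (alT A W z x b * uc (pz A W z).re (Sf A W z) v).re := by
  have hG : Gr A (Wv W z v) x b = Gi A W z x b + gw A W z x * gw A W z b *
      ((qz A W z : ℂ) * I + (-I * (qz A W z : ℂ)) * uc (pz A W z).re (Sf A W z) v) := by
    rw [Gr_eq_Gi hA (Wv_neg hW z v) z x b, Gi_Wv hA hW, gw_Wv hA hW, gw_Wv hA hW,
      Gr_circ hA hW]
  have h1 := circ_alg (Gi A W z x b) (gw A W z x * gw A W z b)
    (uc (pz A W z).re (Sf A W z) v) (qz A W z) (norm_uc (Sf_pos hA hW z) v)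
  rw [← hG, norm_mul, mul_pow] at h1
  have h2 : TT A (Wv W z v) x b = (-(W x).im) * (-(W b).im) * ‖Gr A (Wv W z v) x b‖ ^ 2 := by
    unfold TT KK
    rw [Wv_im, Wv_im]
  rw [h2]
  unfold Tc alT
  rw [← mul_sub]
  have h3 : Gc A W z x b = Gi A W z x b + gw A W z x * gw A W z b * ((qz A W z : ℂ) * I) := rfl
  rw [← h3] at h1
  rw [h1, ← Complex.re_ofReal_mul]
  congr 1
  push_cast
  ring

theorem circ (hA : A.IsSymm) (hW : ∀ x, (W x).im < 0) (z : ι) (v : ℝ) (x : ι) (f : ι → ℝ) :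
    ∑ b, f b * TT A (Wv W z v) x b - ∑ b, f b * Tc A W z x b =
      ((∑ b, (f b : ℂ) * alT A W z x b) * uc (pz A W z).re (Sf A W z) v).re := by
  rw [← Finset.sum_sub_distrib, Finset.sum_mul, Complex.re_sum]
  refine Finset.sum_congr rfl fun b _ => ?_
  rw [← mul_sub, TT_circ hA hW, mul_assoc, Complex.re_ofReal_mul]

/-- `∑_b al_xb = - e_x q g_x²` -/
theorem sum_alT (hA : A.IsSymm) (hW : ∀ x, (W x).im < 0) (z x : ι) :
    ∑ b, alT A W z x b = -(((-(W x).im) * qz A W z : ℝ) : ℂ) * gw A W z x ^ 2 := by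
  have h1 := Gi_gw hA hW z x
  have hS := Sf_pos hA hW z
  have hq : (qz A W z : ℂ) * (Sf A W z : ℂ) = 1 / 2 := by
    have h0 : qz A W z * Sf A W z = 1 / 2 := by
      unfold qz
      field_simp
    rw [← Complex.ofReal_mul, h0]
    push_cast
    ring
  have h2 : ∑ b, ((-(W b).im : ℝ) : ℂ) * (conj (gw A W z b) * gw A W z b) =
      (Sf A W z : ℂ) := by
    unfold Sf
    push_cast
    refine Finset.sum_congr rfl fun b _ => ?_
    rw [mul_comm (conj _), Complex.mul_conj, Complex.normSq_eq_norm_sq]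
    push_cast
    ring
  have h3 : ∑ b, alT A W z x b = (((-(W x).im) : ℝ) : ℂ) * (2 * gw A W z x * (-I * (qz A W z : ℂ))) *
      (∑ b, ((-(W b).im : ℝ) : ℂ) * (conj (Gi A W z x b) * gw A W z b) +
        conj (gw A W z x) * (-(I * (qz A W z : ℂ))) *
          ∑ b, ((-(W b).im : ℝ) : ℂ) * (conj (gw A W z b) * gw A W z b)) := by
    rw [Finset.mul_sum, ← Finset.sum_add_distrib, Finset.mul_sum]
    refine Finset.sum_congr rfl fun b _ => ?_
    unfold alT Gc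
    simp only [map_add, map_mul, Complex.conj_ofReal, Complex.conj_I]
    push_cast
    ring
  rw [h3, h1, h2]
  have h4 : conj (gw A W z x) * (-(I * (qz A W z : ℂ))) * (Sf A W z : ℂ) =
      -(I / 2) * conj (gw A W z x) := by
    linear_combination (-(conj (gw A W z x)) * I) * hq
  rw [h4]
  have h5 : (((gw A W z x).im : ℝ) : ℂ) + -(I / 2) * conj (gw A W z x) =
      -(I / 2) * gw A W z x := by
    have hg : gw A W z x = ((gw A W z x).re : ℂ) + ((gw A W z x).im : ℂ) * I :=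
      (Complex.re_add_im _).symm
    have hg' : conj (gw A W z x) = ((gw A W z x).re : ℂ) - ((gw A W z x).im : ℂ) * I := by
      conv_lhs => rw [hg]
      simp only [map_add, map_mul, Complex.conj_ofReal, Complex.conj_I]
      ring
    rw [hg']
    conv_rhs => rw [hg]
    ring_nf
    rw [Complex.I_sq]
    ring
  rw [h5]
  push_cast
  ring_nf
  rw [Complex.I_sq]
  ring

theorem t2_uc (hA : A.IsSymm) (hW : ∀ x, (W x).im < 0) (z : ι) (v : ℝ) :
    (t2 (pz A W z).re (Sf A W z) v : ℂ) * uc (pz A W z).re (Sf A W z) v =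
      1 / ((v : ℂ) - pz A W z) ^ 2 := by
  have hS := Sf_pos hA hW z
  have hd := uc_den_ne (a := (pz A W z).re) hS v
  have hd2 : (((v - (pz A W z).re : ℝ) : ℂ) + (Sf A W z : ℂ) * I) ≠ 0 := by
    intro h
    have := congrArg Complex.im h
    simp at this
    exact hS.ne' this
  have h1 : (t2 (pz A W z).re (Sf A W z) v : ℂ) =
      ((((v - (pz A W z).re : ℝ) : ℂ) + (Sf A W z : ℂ) * I) *
        (((v - (pz A W z).re : ℝ) : ℂ) - (Sf A W z : ℂ) * I))⁻¹ := by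
    unfold t2
    push_cast
    congr 1
    ring_nf
    rw [Complex.I_sq]
    ring
  rw [h1, sub_pz hA hW]
  unfold uc
  field_simp

/-- **law identity**: the law sees only the multiplier `β` -/
theorem law_id {lam l : ℝ} (hl : 0 < l) (h : l < lam) (hA : A.IsSymm)
    (hW : ∀ x, (W x).im < 0) (z x : ι) (f : ι → ℝ) :
    ∫ v, 2 * ((-(W z).im) * mm A (Wv W z v) z) *
        (∑ b, f b * TT A (Wv W z v) x b - ∑ b, f b * Tc A W z x b) ∂(nuS lam l) =
      (-(W z).im) * ((∑ b, (f b : ℂ) * alT A W z x b) * bet lam l A W z).re := by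
  haveI := isProbabilityMeasure_nuS hl h
  have hS := Sf_pos hA hW z
  set al : ℂ := ∑ b, (f b : ℂ) * alT A W z x b with hal
  have hne : ∀ v : ℝ, (v : ℂ) - pz A W z ≠ 0 := by
    intro v
    rw [sub_pz hA hW]
    exact uc_den_ne hS v
  have hcont : Continuous fun v : ℝ => 1 / ((v : ℂ) - pz A W z) ^ 2 :=
    continuous_const.div ((Complex.continuous_ofReal.sub continuous_const).pow 2)
      (fun v => pow_ne_zero 2 (hne v))
  have hB : ∀ v : ℝ, ‖1 / ((v : ℂ) - pz A W z) ^ 2‖ ≤ ((Sf A W z)⁻¹) ^ 2 := by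
    intro v
    rw [norm_div, norm_one, norm_pow, one_div, ← inv_pow]
    have h1 := Complex.abs_im_le_norm ((v : ℂ) - pz A W z)
    rw [Complex.sub_im, Complex.ofReal_im, zero_sub, abs_neg, pz_im hA hW, abs_of_pos hS] at h1
    gcongr
  have hint : Integrable (fun v : ℝ => 1 / ((v : ℂ) - pz A W z) ^ 2) (nuS lam l) :=
    Integrable.of_bound hcont.aestronglyMeasurable _ (Filter.Eventually.of_forall hB)
  have h1 : ∀ v : ℝ, 2 * ((-(W z).im) * mm A (Wv W z v) z) *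
        (∑ b, f b * TT A (Wv W z v) x b - ∑ b, f b * Tc A W z x b) =
      ((((-(W z).im : ℝ) : ℂ) * (al * (2 * (Sf A W z : ℂ)))) *
        (1 / ((v : ℂ) - pz A W z) ^ 2)).re := by
    intro v
    rw [circ hA hW, mm_Wv hA hW, ← t2_uc hA hW, ← hal]
    have e : (((-(W z).im : ℝ) : ℂ) * (al * (2 * (Sf A W z : ℂ)))) *
        ((t2 (pz A W z).re (Sf A W z) v : ℂ) * uc (pz A W z).re (Sf A W z) v) =
      ((2 * ((-(W z).im) * (Sf A W z * t2 (pz A W z).re (Sf A W z) v)) : ℝ) : ℂ) *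
        (al * uc (pz A W z).re (Sf A W z) v) := by
      push_cast
      ring
    rw [e, Complex.re_ofReal_mul]
  simp only [h1]
  have h2 : ∫ v : ℝ, ((((-(W z).im : ℝ) : ℂ) * (al * (2 * (Sf A W z : ℂ)))) *
        (1 / ((v : ℂ) - pz A W z) ^ 2)).re ∂(nuS lam l) =
      (∫ v : ℝ, (((-(W z).im : ℝ) : ℂ) * (al * (2 * (Sf A W z : ℂ)))) *
        (1 / ((v : ℂ) - pz A W z) ^ 2) ∂(nuS lam l)).re :=
    integral_re (hint.const_mul _)
  rw [h2, integral_const_mul]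
  unfold bet
  rw [← Complex.re_ofReal_mul]
  congr 1
  ring

/-- constant of the law -/
noncomputable def CSm (lam l : ℝ) : ℝ := 5500 * ((1 + 2 * lam ^ 2) / l ^ 2 + 2)

theorem norm_bet {lam l : ℝ} (hl : 0 < l) (h : l < lam) (hA : A.IsSymm)
    (hW : ∀ x, (W x).im < 0) (z : ι) :
    ‖bet lam l A W z‖ ≤ 2 * CSm lam l * (Sf A W z / (1 + ‖pz A W z‖ ^ 2)) := by
  have hS := Sf_pos hA hW z
  have h1 := norm_cauchy2_nuS hl h (z := pz A W z) (by rw [pz_im hA hW]; exact hS.ne')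
  unfold bet
  rw [norm_mul, norm_mul, Complex.norm_real, Real.norm_of_nonneg hS.le, Complex.norm_ofNat]
  calc 2 * Sf A W z * ‖∫ v, 1 / ((v : ℂ) - pz A W z) ^ 2 ∂(nuS lam l)‖ ≤
        2 * Sf A W z * (5500 * ((1 + 2 * lam ^ 2) / l ^ 2 + 2) / (1 + ‖pz A W z‖ ^ 2)) :=
        mul_le_mul_of_nonneg_left h1 (by positivity)
    _ = _ := by unfold CSm; ring

/-- the resolvent from below on the support of the law -/
theorem t2_ge {lam : ℝ} {a B v : ℝ} (hlam : 0 < lam) (hB : 0 < B) (hv : v ∈ Icc (-lam) lam) :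
    1 / ((2 + 2 * lam ^ 2) * (1 + (a ^ 2 + B ^ 2))) ≤ t2 a B v := by
  unfold t2
  rw [one_div]
  have hv' : v ^ 2 ≤ lam ^ 2 := by
    rw [sq_le_sq, abs_of_pos hlam]
    exact abs_le.2 hv
  refine inv_anti₀ (by positivity) ?_
  nlinarith [sq_nonneg (v + a), mul_nonneg (sq_nonneg lam) (sq_nonneg a),
    mul_nonneg (sq_nonneg lam) (sq_nonneg B), sq_nonneg B, sq_nonneg a]

end P365T2.H960
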